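import Vale.Agent.P032.H880.AbefN
import Vale.Agent.P032.H942.Cnt
import Vale.Agent.P032.H642.W2

/-!
# P032: no harmless special ends, final forms

`cnt_of_n54`: the counts of complementary ends if the neighbours of points with at least four colours have at
most four colours.  `no_special_n54`: `no_special_w` of `H880/AbefN.lean` with the counts and the word facts
discharged.
-/

open Set Filter Topology Metric

noncomputable section

namespace Vale.Agent.P032.H880

open Vale.Agent.P032.Six Vale.Agent.P032.S5.H767 Vale.Agent.P032.S5.H349 Vale.Agent.P032.H350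
open Vale.Agent.P032.H642 Vale.Agent.P032.H821

variable {U : Fin 6 → Set ℂ} {T : ℂ → Set (Fin 6)} {z v q y V : ℂ} {a b c d e f g p : Fin 6}

theorem cnt_of_n54 (h : Irr U T) (hmn : Mn4 U T)
    (n54 : ∀ x y, dist x y = 1 → 4 ≤ (T x).ncard → (T y).ncard ≤ 4) (z : ℂ) : Cnt T z where
  special := fun G G' hp nv he => H942.count_special h hmn n54 G G' hp nv he
  two := fun G1 G2 G3 nv h1 _ => H942.count_two h hmn n54 G1 G2 G3 nv h1

/-- **No special ends**: only the cusp lemma at true end points and the absence of ties are assumed -/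
theorem no_special_k (h : Irr U T) (hmn : Mn4 U T) (K : Cnt T z)
    (C : Ctr U T z a b c d e f) (eab : (Ex T z {a, b}).Nonempty) (ecd : (Ex T z {c, d}).Nonempty)
    (hab : ∀ y ∈ closure (Ex T z {a, b}), Hm T a b e f y)
    (hcd : ∀ y ∈ closure (Ex T z {c, d}), Hm T c d e f y) (adj : Adj T z)
    (Kab : CuE T z a b e f) (Kcd : CuE T z c d e f) :
    ∀ y, (y ∈ closure (Ex T z {a, b}) ∨ y ∈ closure (Ex T z {c, d})) → (T y).ncard ≤ 3 :=
  no_special_w h hmn K w1 w2 C eab ecd hab hcd adj Kab Kcd

/-- **No special ends**, neighbours of points with four colours have at most four colours -/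
theorem no_special_n54 (h : Irr U T) (hmn : Mn4 U T)
    (n54 : ∀ x y, dist x y = 1 → 4 ≤ (T x).ncard → (T y).ncard ≤ 4)
    (C : Ctr U T z a b c d e f) (eab : (Ex T z {a, b}).Nonempty) (ecd : (Ex T z {c, d}).Nonempty)
    (hab : ∀ y ∈ closure (Ex T z {a, b}), Hm T a b e f y)
    (hcd : ∀ y ∈ closure (Ex T z {c, d}), Hm T c d e f y) (adj : Adj T z)
    (Kab : CuE T z a b e f) (Kcd : CuE T z c d e f) :
    ∀ y, (y ∈ closure (Ex T z {a, b}) ∨ y ∈ closure (Ex T z {c, d})) → (T y).ncard ≤ 3 :=
  no_special_k h hmn (cnt_of_n54 h hmn n54 z) C eab ecd hab hcd adj Kab Kcd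

end Vale.Agent.P032.H880
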